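import Mathlib

/-!
# The Rademacher copy of the Euclidean cube: upper Khinchin bound (helper91, P249)

`sg b` is the sign of a bit, `cubeX K a ε = ∑ i, sg (a i) * sg (ε i)`.
`khinchin_cube`: `∑ ε, |∑ i, c i * sg (ε i)| ^ p ≤ 2 * 2 ^ K * (p * (∑ i, c i ^ 2) / e) ^ (p / 2)`.
`X1`: `∑ ε, |cubeX K a ε - cubeX K b ε| ^ p ≤ 2 (p/e)^(p/2) 2^p 2^K (hammingDist a b)^(p/2)`.
-/

namespace Vale.Agent.Lib.P249.H91

open Finset

/-- The sign of a bit: `false ↦ 1`, `true ↦ -1`. -/
noncomputable def sg (b : Bool) : ℝ := if b then -1 else 1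

/-- The point `x_a` of the Rademacher copy of the cube, at the coordinate `ε`. -/
noncomputable def cubeX (K : ℕ) (a ε : Fin K → Bool) : ℝ := ∑ i, sg (a i) * sg (ε i)

theorem mgf_cube (K : ℕ) (c : Fin K → ℝ) :
    ∑ ε : Fin K → Bool, Real.exp (∑ i, c i * sg (ε i))
      = ∏ i, (Real.exp (c i) + Real.exp (-c i)) := by
  have h1 : ∀ ε : Fin K → Bool,
      Real.exp (∑ i, c i * sg (ε i)) = ∏ i, Real.exp (c i * sg (ε i)) := by
    intro ε; rw [Real.exp_sum]
  simp only [h1]
  have h2 : ∀ i : Fin K,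
      Real.exp (c i) + Real.exp (-c i) = ∑ b : Bool, Real.exp (c i * sg b) := by
    intro i; simp [sg, add_comm]
  simp only [h2]
  rw [Finset.prod_univ_sum, Fintype.piFinset_univ]

theorem mgf_cube_le (K : ℕ) (c : Fin K → ℝ) :
    ∑ ε : Fin K → Bool, Real.exp (∑ i, c i * sg (ε i))
      ≤ 2 ^ K * Real.exp ((∑ i, c i ^ 2) / 2) := by
  rw [mgf_cube]
  have h : ∀ i, Real.exp (c i) + Real.exp (-c i) ≤ 2 * Real.exp (c i ^ 2 / 2) := by
    intro i
    have := Real.cosh_le_exp_half_sq (c i)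
    rw [Real.cosh_eq] at this
    linarith
  calc ∏ i, (Real.exp (c i) + Real.exp (-c i)) ≤ ∏ i, (2 * Real.exp (c i ^ 2 / 2)) :=
        Finset.prod_le_prod (fun i _ => by positivity) (fun i _ => h i)
    _ = 2 ^ K * Real.exp ((∑ i, c i ^ 2) / 2) := by
        rw [Finset.prod_mul_distrib, Finset.prod_const, Finset.card_univ, Fintype.card_fin,
          ← Real.exp_sum, Finset.sum_div]

/-- `|r|^q ≤ (q/(e L))^q (e^{L r} + e^{-L r})`. -/
theorem abs_rpow_le_exp (r q L : ℝ) (hq : 0 < q) (hL : 0 < L) :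
    |r| ^ q ≤ (q / (Real.exp 1 * L)) ^ q * (Real.exp (L * r) + Real.exp (-(L * r))) := by
  have he : 0 < Real.exp 1 := Real.exp_pos 1
  set u : ℝ := L * |r| / q with hu
  have hu0 : 0 ≤ u := by positivity
  have h1 : u ≤ Real.exp (u - 1) := by
    have := Real.add_one_le_exp (u - 1)
    linarith
  have h2 : u ^ q ≤ Real.exp (L * |r| - q) := by
    calc u ^ q ≤ (Real.exp (u - 1)) ^ q := Real.rpow_le_rpow hu0 h1 hq.le
      _ = Real.exp ((u - 1) * q) := by rw [← Real.exp_mul]
      _ = Real.exp (L * |r| - q) := by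
          congr 1; rw [hu]; field_simp
  have h3 : |r| = (q / L) * u := by rw [hu]; field_simp
  have h4 : Real.exp (L * |r|) ≤ Real.exp (L * r) + Real.exp (-(L * r)) := by
    rcases abs_cases r with ⟨h, _⟩ | ⟨h, _⟩
    · rw [h]; have := Real.exp_pos (-(L * r)); linarith
    · rw [h]; have := Real.exp_pos (L * r)
      have e : L * -r = -(L * r) := by ring
      rw [e]; linarith
  have h5 : (q / (Real.exp 1 * L)) ^ q = (q / L) ^ q * Real.exp (-q) := by
    have : q / (Real.exp 1 * L) = (q / L) * (Real.exp 1)⁻¹ := by field_simp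
    rw [this, Real.mul_rpow (by positivity) (by positivity), Real.inv_rpow he.le,
      Real.exp_one_rpow, Real.exp_neg]
  calc |r| ^ q = (q / L) ^ q * u ^ q := by
        rw [h3, Real.mul_rpow (by positivity) hu0]
    _ ≤ (q / L) ^ q * Real.exp (L * |r| - q) := by gcongr
    _ = (q / L) ^ q * Real.exp (-q) * Real.exp (L * |r|) := by
        rw [mul_assoc, ← Real.exp_add]; congr 2; ring
    _ = (q / (Real.exp 1 * L)) ^ q * Real.exp (L * |r|) := by rw [h5]
    _ ≤ (q / (Real.exp 1 * L)) ^ q * (Real.exp (L * r) + Real.exp (-(L * r))) := by gcongr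

/-- Upper Khinchin inequality on the cube with an explicit constant. -/
theorem khinchin_cube (K : ℕ) (c : Fin K → ℝ) (p : ℝ) (hp : 0 < p) :
    ∑ ε : Fin K → Bool, |∑ i, c i * sg (ε i)| ^ p
      ≤ 2 * 2 ^ K * (p * (∑ i, c i ^ 2) / Real.exp 1) ^ (p / 2) := by
  have he : 0 < Real.exp 1 := Real.exp_pos 1
  set A2 : ℝ := ∑ i, c i ^ 2 with hA2
  have hA2nn : 0 ≤ A2 := Finset.sum_nonneg (fun i _ => sq_nonneg _)
  rcases hA2nn.eq_or_lt with h0 | hpos
  · -- all `c i = 0`
    have hc : ∀ i, c i = 0 := by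
      intro i
      have := (Finset.sum_eq_zero_iff_of_nonneg (fun i _ => sq_nonneg (c i))).mp h0.symm i
        (Finset.mem_univ i)
      exact pow_eq_zero_iff (two_ne_zero) |>.mp this
    have hz : ∀ ε : Fin K → Bool, |∑ i, c i * sg (ε i)| ^ p = 0 := by
      intro ε
      simp [hc, Real.zero_rpow hp.ne']
    simp only [hz, Finset.sum_const_zero]
    positivity
  · set L : ℝ := Real.sqrt (p / A2) with hL
    have hLpos : 0 < L := Real.sqrt_pos.mpr (div_pos hp hpos)
    have hL2 : L ^ 2 = p / A2 := Real.sq_sqrt (div_pos hp hpos).le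
    have hplus : ∑ ε : Fin K → Bool, Real.exp (L * ∑ i, c i * sg (ε i))
        ≤ 2 ^ K * Real.exp (p / 2) := by
      have := mgf_cube_le K (fun i => L * c i)
      have e1 : ∀ ε : Fin K → Bool, ∑ i, L * c i * sg (ε i) = L * ∑ i, c i * sg (ε i) := by
        intro ε; rw [Finset.mul_sum]; exact Finset.sum_congr rfl (fun i _ => by ring)
      have e2 : (∑ i, (L * c i) ^ 2) / 2 = p / 2 := by
        have : ∑ i, (L * c i) ^ 2 = L ^ 2 * A2 := by
          rw [hA2, Finset.mul_sum]; exact Finset.sum_congr rfl (fun i _ => by ring)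
        rw [this, hL2]; field_simp
      simp only [e1] at this
      rw [e2] at this
      exact this
    have hminus : ∑ ε : Fin K → Bool, Real.exp (-(L * ∑ i, c i * sg (ε i)))
        ≤ 2 ^ K * Real.exp (p / 2) := by
      have := mgf_cube_le K (fun i => -(L * c i))
      have e1 : ∀ ε : Fin K → Bool,
          ∑ i, -(L * c i) * sg (ε i) = -(L * ∑ i, c i * sg (ε i)) := by
        intro ε; rw [Finset.mul_sum, ← Finset.sum_neg_distrib]
        exact Finset.sum_congr rfl (fun i _ => by ring)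
      have e2 : (∑ i, (-(L * c i)) ^ 2) / 2 = p / 2 := by
        have : ∑ i, (-(L * c i)) ^ 2 = L ^ 2 * A2 := by
          rw [hA2, Finset.mul_sum]; exact Finset.sum_congr rfl (fun i _ => by ring)
        rw [this, hL2]; field_simp
      simp only [e1] at this
      rw [e2] at this
      exact this
    have hconst : (p / (Real.exp 1 * L)) ^ p * Real.exp (p / 2)
        = (p * A2 / Real.exp 1) ^ (p / 2) := by
      have hb : 0 ≤ p / (Real.exp 1 * L) := by positivity
      have e1 : (p / (Real.exp 1 * L)) ^ p = ((p / (Real.exp 1 * L)) ^ 2) ^ (p / 2) := by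
        rw [← Real.rpow_natCast, ← Real.rpow_mul hb]
        congr 1; push_cast; ring
      have e2 : Real.exp (p / 2) = (Real.exp 1) ^ (p / 2) := (Real.exp_one_rpow _).symm
      rw [e1, e2, ← Real.mul_rpow (by positivity) he.le]
      congr 1
      rw [div_pow, mul_pow, hL2]
      field_simp
    calc ∑ ε : Fin K → Bool, |∑ i, c i * sg (ε i)| ^ p
        ≤ ∑ ε : Fin K → Bool, (p / (Real.exp 1 * L)) ^ p *
            (Real.exp (L * ∑ i, c i * sg (ε i)) + Real.exp (-(L * ∑ i, c i * sg (ε i)))) :=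
          Finset.sum_le_sum (fun ε _ => abs_rpow_le_exp _ p L hp hLpos)
      _ = (p / (Real.exp 1 * L)) ^ p *
            (∑ ε : Fin K → Bool, Real.exp (L * ∑ i, c i * sg (ε i))
              + ∑ ε : Fin K → Bool, Real.exp (-(L * ∑ i, c i * sg (ε i)))) := by
          rw [← Finset.mul_sum, Finset.sum_add_distrib]
      _ ≤ (p / (Real.exp 1 * L)) ^ p * (2 ^ K * Real.exp (p / 2) + 2 ^ K * Real.exp (p / 2)) := by
          gcongr
      _ = 2 * 2 ^ K * ((p / (Real.exp 1 * L)) ^ p * Real.exp (p / 2)) := by ring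
      _ = 2 * 2 ^ K * (p * A2 / Real.exp 1) ^ (p / 2) := by rw [hconst]

theorem sg_sq (b : Bool) : sg b ^ 2 = 1 := by
  cases b <;> simp [sg]

theorem sg_sub_sq (x y : Bool) : (sg x - sg y) ^ 2 = if x ≠ y then 4 else 0 := by
  cases x <;> cases y <;> simp [sg] <;> norm_num

theorem sum_sg_sub_sq (K : ℕ) (a b : Fin K → Bool) :
    ∑ i, (sg (a i) - sg (b i)) ^ 2 = 4 * (hammingDist a b : ℝ) := by
  unfold hammingDist
  rw [Finset.card_filter]
  push_cast
  rw [Finset.mul_sum]
  refine Finset.sum_congr rfl (fun i _ => ?_)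
  rw [sg_sub_sq]
  split_ifs <;> simp

theorem cubeX_sub (K : ℕ) (a b ε : Fin K → Bool) :
    cubeX K a ε - cubeX K b ε = ∑ i, (sg (a i) - sg (b i)) * sg (ε i) := by
  unfold cubeX
  rw [← Finset.sum_sub_distrib]
  exact Finset.sum_congr rfl (fun i _ => by ring)

/-- (X1): the `p`-th power of the `ℓ_p` distance of two cube points is at most
`2 (p/e)^(p/2) 2^p 2^K t^(p/2)`, `t` the Hamming distance. -/
theorem X1 (K : ℕ) (p : ℝ) (hp : 0 < p) (a b : Fin K → Bool) :
    ∑ ε : Fin K → Bool, |cubeX K a ε - cubeX K b ε| ^ p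
      ≤ 2 * (p / Real.exp 1) ^ (p / 2) * 2 ^ p * 2 ^ K * (hammingDist a b : ℝ) ^ (p / 2) := by
  have he : 0 < Real.exp 1 := Real.exp_pos 1
  simp only [cubeX_sub]
  refine (khinchin_cube K (fun i => sg (a i) - sg (b i)) p hp).trans ?_
  rw [sum_sg_sub_sq]
  have ht : (0 : ℝ) ≤ (hammingDist a b : ℝ) := Nat.cast_nonneg _
  have e1 : p * (4 * (hammingDist a b : ℝ)) / Real.exp 1
      = 4 * ((p / Real.exp 1) * (hammingDist a b : ℝ)) := by ring
  have e2 : (4 : ℝ) ^ (p / 2) = 2 ^ p := by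
    have : (4 : ℝ) = 2 ^ (2 : ℝ) := by norm_num
    rw [this, ← Real.rpow_mul (by norm_num)]
    congr 1; ring
  rw [e1, Real.mul_rpow (by norm_num) (by positivity), Real.mul_rpow (by positivity) ht, e2]
  apply le_of_eq
  ring

/-- (X1) in the def-free form of pool job 218, with the constant `(q/e)^(q/2)`. -/
theorem x1_upper_e (K : ℕ) (q : ℝ) (hq : 0 < q) (a b : Fin K → Bool) :
    ∑ e : Fin K → Bool,
      |∑ i, ((if a i then (-1:ℝ) else 1) - (if b i then (-1:ℝ) else 1))
          * (if e i then (-1:ℝ) else 1)| ^ q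
      ≤ 2 * (q / Real.exp 1) ^ (q / 2) * 2 ^ q * 2 ^ K * (hammingDist a b : ℝ) ^ (q / 2) := by
  have h := X1 K q hq a b
  simp only [cubeX_sub] at h
  exact h

/-- (X1) in the exact form of pool job 218 (constant `q^(q/2)`). -/
theorem x1_upper (K : ℕ) (q : ℝ) (hq : 2 ≤ q) (a b : Fin K → Bool) :
    ∑ e : Fin K → Bool,
      |∑ i, ((if a i then (-1:ℝ) else 1) - (if b i then (-1:ℝ) else 1))
          * (if e i then (-1:ℝ) else 1)| ^ q
      ≤ 2 * q ^ (q / 2) * 2 ^ q * 2 ^ K * (hammingDist a b : ℝ) ^ (q / 2) := by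
  have hq0 : 0 < q := by linarith
  have he : 1 ≤ Real.exp 1 := Real.one_le_exp (by norm_num)
  refine (x1_upper_e K q hq0 a b).trans ?_
  have h1 : (q / Real.exp 1) ^ (q / 2) ≤ q ^ (q / 2) := by
    apply Real.rpow_le_rpow (by positivity) (div_le_self hq0.le he) (by positivity)
  have ht : (0 : ℝ) ≤ (hammingDist a b : ℝ) ^ (q / 2) := by positivity
  have h2 : (0 : ℝ) ≤ (2 : ℝ) ^ q := by positivity
  gcongr

end Vale.Agent.Lib.P249.H91
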