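import Vale.Agent.Lib.P249.helper62.GridDefs

/-!
# A discrete Prekopa-Leindler inequality on the natural numbers (helper91, P249, job 227 copy)

`pl_int_levels`: for nonempty finite sets `A B` of natural numbers, reals `t0 ≤ F, G ≤ m` on `A`, `B`
with the top level `m` attained by both, and `min (F x) (G y) ≤ H (x + y)`:
`∑_A (F - t0) + ∑_B (G - t0) - (m - t0) ≤ ∑_{A+B} (H - t0)`.
`pl_level`: the case `t0 = 0` (exact statement of pool job 227); `pl_int`: `t0 = 0`, `m = 1`.
Proof: induction over the levels, Cauchy-Davenport `#A + #B - 1 ≤ #(A + B)` on every level.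
-/

namespace Vale.Agent.Lib.P249.H91

open Finset
open scoped Pointwise

theorem pl_int_levels : ∀ (N : ℕ) (A B : Finset ℕ), A.card + B.card ≤ N →
    A.Nonempty → B.Nonempty → ∀ (F G H : ℕ → ℝ) (t0 m : ℝ),
    (∀ x ∈ A, t0 ≤ F x) → (∀ x ∈ A, F x ≤ m) → (∃ x ∈ A, F x = m) →
    (∀ y ∈ B, t0 ≤ G y) → (∀ y ∈ B, G y ≤ m) → (∃ y ∈ B, G y = m) →
    (∀ x ∈ A, ∀ y ∈ B, min (F x) (G y) ≤ H (x + y)) →
    ∑ x ∈ A, (F x - t0) + ∑ y ∈ B, (G y - t0) - (m - t0) ≤ ∑ z ∈ A + B, (H z - t0) := by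
  intro N
  induction N with
  | zero =>
    intro A B hN hA hB
    have := hA.card_pos
    omega
  | succ N ih =>
    intro A B hN hA hB F G H t0 m hF0 hFm hFtop hG0 hGm hGtop hH
    obtain ⟨xm, hxm, hFxm⟩ := hFtop
    obtain ⟨ym, hym, hGym⟩ := hGtop
    -- the least level
    obtain ⟨xl, hxl, hxlmin⟩ := A.exists_min_image F hA
    obtain ⟨yl, hyl, hylmin⟩ := B.exists_min_image G hB
    set t : ℝ := min (F xl) (G yl) with ht
    have htF : ∀ x ∈ A, t ≤ F x := fun x hx => (min_le_left _ _).trans (hxlmin x hx)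
    have htG : ∀ y ∈ B, t ≤ G y := fun y hy => (min_le_right _ _).trans (hylmin y hy)
    have ht0 : t0 ≤ t := le_min (hF0 xl hxl) (hG0 yl hyl)
    have htm : t ≤ m := (htF xm hxm).trans (hFm xm hxm)
    have hHt : ∀ z ∈ A + B, t ≤ H z := by
      intro z hz
      obtain ⟨x, hx, y, hy, rfl⟩ := Finset.mem_add.mp hz
      exact (le_min (htF x hx) (htG y hy)).trans (hH x hx y hy)
    have hCD : (A.card : ℝ) + B.card - 1 ≤ ((A + B).card : ℝ) := by
      have h1 := cauchy_davenport_add_of_linearOrder_isCancelAdd hA hB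
      have h2 := hA.card_pos
      have h3 : A.card + B.card ≤ (A + B).card + 1 := by omega
      have h4 : ((A.card + B.card : ℕ) : ℝ) ≤ (((A + B).card + 1 : ℕ) : ℝ) := by exact_mod_cast h3
      push_cast at h4
      linarith
    -- shifting the base level
    have shiftA : ∑ x ∈ A, (F x - t0) = ∑ x ∈ A, (F x - t) + A.card * (t - t0) := by
      rw [← nsmul_eq_mul, ← Finset.sum_const, ← Finset.sum_add_distrib]
      exact Finset.sum_congr rfl (fun x _ => by ring)
    have shiftB : ∑ y ∈ B, (G y - t0) = ∑ y ∈ B, (G y - t) + B.card * (t - t0) := by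
      rw [← nsmul_eq_mul, ← Finset.sum_const, ← Finset.sum_add_distrib]
      exact Finset.sum_congr rfl (fun x _ => by ring)
    have shiftH : ∑ z ∈ A + B, (H z - t0) = ∑ z ∈ A + B, (H z - t) + (A + B).card * (t - t0) := by
      rw [← nsmul_eq_mul, ← Finset.sum_const, ← Finset.sum_add_distrib]
      exact Finset.sum_congr rfl (fun x _ => by ring)
    have hd : 0 ≤ t - t0 := sub_nonneg.mpr ht0
    rcases htm.eq_or_lt with hEq | hLt
    · -- all values are `m`
      have hFall : ∀ x ∈ A, F x - t = 0 := fun x hx => by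
        have := htF x hx; have := hFm x hx; linarith
      have hGall : ∀ y ∈ B, G y - t = 0 := fun y hy => by
        have := htG y hy; have := hGm y hy; linarith
      have hHnn : 0 ≤ ∑ z ∈ A + B, (H z - t) :=
        Finset.sum_nonneg (fun z hz => sub_nonneg.mpr (hHt z hz))
      rw [shiftA, shiftB, shiftH, Finset.sum_eq_zero hFall, Finset.sum_eq_zero hGall]
      have h5 : ((A.card : ℝ) + B.card - 1) * (t - t0) ≤ ((A + B).card : ℝ) * (t - t0) :=
        mul_le_mul_of_nonneg_right hCD hd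
      rw [← hEq]
      nlinarith
    · -- pass to the strict upper level sets
      set A' : Finset ℕ := A.filter (fun x => t < F x) with hA'
      set B' : Finset ℕ := B.filter (fun y => t < G y) with hB'
      have hxmA' : xm ∈ A' := mem_filter.mpr ⟨hxm, by rw [hFxm]; exact hLt⟩
      have hymB' : ym ∈ B' := mem_filter.mpr ⟨hym, by rw [hGym]; exact hLt⟩
      have hA'sub : A' ⊆ A := filter_subset _ _
      have hB'sub : B' ⊆ B := filter_subset _ _
      have hcard : A'.card + B'.card ≤ N := by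
        have h1 : A'.card ≤ A.card := card_le_card hA'sub
        have h2 : B'.card ≤ B.card := card_le_card hB'sub
        rcases le_total (F xl) (G yl) with hc | hc
        · -- `xl` leaves `A`
          have hxl' : xl ∉ A' := by
            intro hmem
            have := (mem_filter.mp hmem).2
            rw [ht, min_eq_left hc] at this
            exact lt_irrefl _ this
          have : A'.card < A.card := card_lt_card ⟨hA'sub, fun hsub => hxl' (hsub hxl)⟩
          omega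
        · have hyl' : yl ∉ B' := by
            intro hmem
            have := (mem_filter.mp hmem).2
            rw [ht, min_eq_right hc] at this
            exact lt_irrefl _ this
          have : B'.card < B.card := card_lt_card ⟨hB'sub, fun hsub => hyl' (hsub hyl)⟩
          omega
      have hih := ih A' B' hcard ⟨xm, hxmA'⟩ ⟨ym, hymB'⟩ F G H t m
        (fun x hx => htF x (hA'sub hx)) (fun x hx => hFm x (hA'sub hx)) ⟨xm, hxmA', hFxm⟩
        (fun y hy => htG y (hB'sub hy)) (fun y hy => hGm y (hB'sub hy)) ⟨ym, hymB', hGym⟩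
        (fun x hx y hy => hH x (hA'sub hx) y (hB'sub hy))
      have eA : ∑ x ∈ A', (F x - t) = ∑ x ∈ A, (F x - t) := by
        apply Finset.sum_subset hA'sub
        intro x hx hx'
        have h1 : ¬ t < F x := fun h => hx' (mem_filter.mpr ⟨hx, h⟩)
        have h2 := htF x hx
        linarith [not_lt.mp h1]
      have eB : ∑ y ∈ B', (G y - t) = ∑ y ∈ B, (G y - t) := by
        apply Finset.sum_subset hB'sub
        intro y hy hy'
        have h1 : ¬ t < G y := fun h => hy' (mem_filter.mpr ⟨hy, h⟩)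
        have h2 := htG y hy
        linarith [not_lt.mp h1]
      have eH : ∑ z ∈ A' + B', (H z - t) ≤ ∑ z ∈ A + B, (H z - t) :=
        Finset.sum_le_sum_of_subset_of_nonneg (Finset.add_subset_add hA'sub hB'sub)
          (fun z hz _ => sub_nonneg.mpr (hHt z hz))
      rw [eA, eB] at hih
      rw [shiftA, shiftB, shiftH]
      have h5 : ((A.card : ℝ) + B.card - 1) * (t - t0) ≤ ((A + B).card : ℝ) * (t - t0) :=
        mul_le_mul_of_nonneg_right hCD hd
      nlinarith

/-- Pool job 227 (helper62, GRID-A): discrete Prekopa-Leindler on `ℕ`, level form. -/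
theorem pl_level (A B : Finset ℕ) (F G H : ℕ → ℝ) (m : ℝ)
    (hF0 : ∀ x ∈ A, 0 ≤ F x) (hG0 : ∀ y ∈ B, 0 ≤ G y)
    (hFm : ∀ x ∈ A, F x ≤ m) (hGm : ∀ y ∈ B, G y ≤ m)
    (hFa : ∃ x ∈ A, F x = m) (hGa : ∃ y ∈ B, G y = m)
    (hH : ∀ x ∈ A, ∀ y ∈ B, min (F x) (G y) ≤ H (x + y)) :
    ∑ x ∈ A, F x + ∑ y ∈ B, G y - m ≤ ∑ z ∈ A + B, H z := by
  obtain ⟨x, hx, hxm⟩ := hFa
  obtain ⟨y, hy, hym⟩ := hGa
  have := pl_int_levels (A.card + B.card) A B le_rfl ⟨x, hx⟩ ⟨y, hy⟩ F G H 0 m
    hF0 hFm ⟨x, hx, hxm⟩ hG0 hGm ⟨y, hy, hym⟩ hH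
  simpa using this

/-- Discrete Prekopa-Leindler on `ℕ`, normalised: `F`, `G` with values in `[0,1]` on `A`, `B`,
both attaining `1`, and `min (F x) (G y) ≤ H (x + y)`; then `∑_A F + ∑_B G - 1 ≤ ∑_{A+B} H`. -/
theorem pl_int (A B : Finset ℕ) (F G H : ℕ → ℝ)
    (hF0 : ∀ x ∈ A, 0 ≤ F x) (hF1 : ∀ x ∈ A, F x ≤ 1) (hFtop : ∃ x ∈ A, F x = 1)
    (hG0 : ∀ y ∈ B, 0 ≤ G y) (hG1 : ∀ y ∈ B, G y ≤ 1) (hGtop : ∃ y ∈ B, G y = 1)
    (hH : ∀ x ∈ A, ∀ y ∈ B, min (F x) (G y) ≤ H (x + y)) :
    ∑ x ∈ A, F x + ∑ y ∈ B, G y - 1 ≤ ∑ z ∈ A + B, H z := by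
  obtain ⟨x, hx, _⟩ := hFtop
  obtain ⟨y, hy, _⟩ := hGtop
  have := pl_int_levels (A.card + B.card) A B le_rfl ⟨x, hx⟩ ⟨y, hy⟩ F G H 0 1
    hF0 hF1 ⟨x, hx, by assumption⟩ hG0 hG1 ⟨y, hy, by assumption⟩ hH
  simpa using this

end Vale.Agent.Lib.P249.H91
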