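import Vale.Agent.Lib.P249.helper53.Cube

/-!
# Concentration of sqrt-Hamming-Lipschitz functions on the cube (helper91, P249, job 217)

`conc_cube`: if `|h a - h b| ≤ Lam * sqrt (hammingDist a b)` on `Fin K → Bool`, then
`∑ a, ∑ b, |h a - h b| ^ q ≤ 4 ^ K * 2 ^ (q + 2) * Lam ^ q * (q * K) ^ (q / 4)`.
Proof: a median, Talagrand's induction in pair form (`H53.pl_cube`) on both sides of the median,
and the elementary bound `r ^ s ≤ (s / (e L)) ^ s * exp (L r)`.
-/

namespace Vale.Agent.Lib.P249.H91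

open Finset

/-- Every real function on a nonempty finite type has a median. -/
theorem exists_median {α : Type*} [Fintype α] [Nonempty α] (h : α → ℝ) :
    ∃ M : ℝ, Fintype.card α ≤ 2 * (univ.filter (fun a => h a ≤ M)).card ∧
      Fintype.card α ≤ 2 * (univ.filter (fun a => M ≤ h a)).card := by
  classical
  set S : Finset ℝ := univ.image h with hS
  set T : Finset ℝ :=
    S.filter (fun v => Fintype.card α ≤ 2 * (univ.filter (fun a => h a ≤ v)).card) with hT
  have hSne : S.Nonempty := univ_nonempty.image h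
  have hTne : T.Nonempty := by
    refine ⟨S.max' hSne, ?_⟩
    rw [hT, mem_filter]
    refine ⟨S.max'_mem hSne, ?_⟩
    have : univ.filter (fun a => h a ≤ S.max' hSne) = univ := by
      apply filter_true_of_mem
      intro a _
      exact S.le_max' _ (mem_image_of_mem h (mem_univ a))
    rw [this, card_univ]; omega
  refine ⟨T.min' hTne, ?_, ?_⟩
  · exact (mem_filter.mp (T.min'_mem hTne)).2
  · by_contra hcon
    rw [not_le] at hcon
    set M := T.min' hTne with hM
    have hsplit : (univ.filter (fun a => M ≤ h a)).card + (univ.filter (fun a => h a < M)).card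
        = Fintype.card α := by
      rw [← card_univ, ← card_filter_add_card_filter_not (s := univ) (fun a => M ≤ h a)]
      congr 2
      ext a; simp [not_le]
    have hlt : Fintype.card α < 2 * (univ.filter (fun a => h a < M)).card := by omega
    have hne : (S.filter (fun v => v < M)).Nonempty := by
      have : 0 < (univ.filter (fun a => h a < M)).card := by omega
      obtain ⟨a, ha⟩ := card_pos.mp this
      rw [mem_filter] at ha
      exact ⟨h a, mem_filter.mpr ⟨mem_image_of_mem h (mem_univ a), ha.2⟩⟩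
    set v' := (S.filter (fun v => v < M)).max' hne with hv'
    have hv'mem := (S.filter (fun v => v < M)).max'_mem hne
    rw [mem_filter] at hv'mem
    have heq : univ.filter (fun a => h a ≤ v') = univ.filter (fun a => h a < M) := by
      ext a
      simp only [mem_filter, mem_univ, true_and]
      constructor
      · intro ha; exact lt_of_le_of_lt ha hv'mem.2
      · intro ha
        exact (S.filter (fun v => v < M)).le_max' _
          (mem_filter.mpr ⟨mem_image_of_mem h (mem_univ a), ha⟩)
    have hv'T : v' ∈ T := by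
      rw [hT, mem_filter]
      refine ⟨hv'mem.1, ?_⟩
      rw [heq]; omega
    have := T.min'_le v' hv'T
    exact absurd hv'mem.2 (not_lt.mpr this)

/-- `r^s ≤ (s/(e L))^s e^{L r}` for `r ≥ 0`. -/
theorem rpow_le_exp (r s L : ℝ) (hr : 0 ≤ r) (hs : 0 < s) (hL : 0 < L) :
    r ^ s ≤ (s / (Real.exp 1 * L)) ^ s * Real.exp (L * r) := by
  have he : 0 < Real.exp 1 := Real.exp_pos 1
  set u : ℝ := L * r / s with hu
  have hu0 : 0 ≤ u := by positivity
  have h1 : u ≤ Real.exp (u - 1) := by
    have := Real.add_one_le_exp (u - 1)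
    linarith
  have h2 : u ^ s ≤ Real.exp (L * r - s) := by
    calc u ^ s ≤ (Real.exp (u - 1)) ^ s := Real.rpow_le_rpow hu0 h1 hs.le
      _ = Real.exp ((u - 1) * s) := by rw [← Real.exp_mul]
      _ = Real.exp (L * r - s) := by
          congr 1; rw [hu]; field_simp
  have h3 : r = (s / L) * u := by rw [hu]; field_simp
  have h5 : (s / (Real.exp 1 * L)) ^ s = (s / L) ^ s * Real.exp (-s) := by
    have : s / (Real.exp 1 * L) = (s / L) * (Real.exp 1)⁻¹ := by field_simp
    rw [this, Real.mul_rpow (by positivity) (by positivity), Real.inv_rpow he.le,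
      Real.exp_one_rpow, Real.exp_neg]
  calc r ^ s = (s / L) ^ s * u ^ s := by
        conv_lhs => rw [h3]
        rw [Real.mul_rpow (by positivity) hu0]
    _ ≤ (s / L) ^ s * Real.exp (L * r - s) := by gcongr
    _ = (s / L) ^ s * Real.exp (-s) * Real.exp (L * r) := by
        rw [mul_assoc, ← Real.exp_add]; congr 2; ring
    _ = (s / (Real.exp 1 * L)) ^ s * Real.exp (L * r) := by rw [h5]

/-- One side of the median: exponential moment of the squared positive part. -/
theorem one_side (K : ℕ) (L : ℝ) (hL : 0 ≤ L) (Lam : ℝ) (hLam : 0 < Lam)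
    (h : (Fin K → Bool) → ℝ)
    (hlip : ∀ a b, |h a - h b| ≤ Lam * Real.sqrt (hammingDist a b)) (M : ℝ)
    (hmed : 2 ^ K ≤ 2 * (univ.filter (fun a => h a ≤ M)).card) :
    ∑ a, Real.exp (L * (max (h a - M) 0) ^ 2 / Lam ^ 2)
      ≤ 2 * 2 ^ K * Real.exp (L ^ 2 * K / 4) := by
  classical
  set g : (Fin K → Bool) → ℝ := fun a => L * (max (h a - M) 0) ^ 2 / Lam ^ 2 with hg
  have hg0 : ∀ a, 0 ≤ g a := fun a => by rw [hg]; positivity
  set T : ℝ := ∑ a, g a with hT
  have hgT : ∀ a, g a ≤ T := fun a => Finset.single_le_sum (fun i _ => hg0 i) (mem_univ a)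
  set f : (Fin K → Bool) → ℝ := fun b => if h b ≤ M then 0 else T with hf
  have key : ∀ a b, g a ≤ f b + L * (hammingDist a b : ℝ) := by
    intro a b
    by_cases hb : h b ≤ M
    · have hfb : f b = 0 := by rw [hf]; simp [hb]
      rw [hfb, zero_add]
      have h1 : max (h a - M) 0 ≤ Lam * Real.sqrt (hammingDist a b) := by
        apply max_le
        · have h1 := hlip a b
          have h2 := le_abs_self (h a - h b)
          linarith
        · positivity
      have h2 : (max (h a - M) 0) ^ 2 ≤ Lam ^ 2 * (hammingDist a b : ℝ) := by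
        have h0 : 0 ≤ max (h a - M) 0 := le_max_right _ _
        calc (max (h a - M) 0) ^ 2 ≤ (Lam * Real.sqrt (hammingDist a b)) ^ 2 := by gcongr
          _ = Lam ^ 2 * (hammingDist a b : ℝ) := by
            rw [mul_pow, Real.sq_sqrt (Nat.cast_nonneg _)]
      have hgdef : g a = L * (max (h a - M) 0) ^ 2 / Lam ^ 2 := rfl
      rw [hgdef, div_le_iff₀ (by positivity)]
      calc L * (max (h a - M) 0) ^ 2 ≤ L * (Lam ^ 2 * (hammingDist a b : ℝ)) := by gcongr
        _ = L * (hammingDist a b : ℝ) * Lam ^ 2 := by ring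
    · have hfb : f b = T := by rw [hf]; simp [hb]
      rw [hfb]
      have : 0 ≤ L * (hammingDist a b : ℝ) := by positivity
      linarith [hgT a]
  have hpl := H53.pl_cube K L hL f g key
  have hB : (2:ℝ) ^ K / 2 ≤ ∑ b, Real.exp (-f b) := by
    have h1 : ((univ.filter (fun a => h a ≤ M)).card : ℝ) ≤ ∑ b, Real.exp (-f b) := by
      calc ((univ.filter (fun a => h a ≤ M)).card : ℝ)
          = ∑ b ∈ univ.filter (fun a => h a ≤ M), (1:ℝ) := by simp
        _ = ∑ b ∈ univ.filter (fun a => h a ≤ M), Real.exp (-f b) := by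
          apply Finset.sum_congr rfl
          intro b hb
          rw [mem_filter] at hb
          have hfb : f b = 0 := by rw [hf]; simp [hb.2]
          rw [hfb]; simp
        _ ≤ ∑ b, Real.exp (-f b) :=
          Finset.sum_le_sum_of_subset_of_nonneg (filter_subset _ _)
            (fun _ _ _ => (Real.exp_pos _).le)
    have h2 : ((2:ℝ) ^ K) ≤ 2 * ((univ.filter (fun a => h a ≤ M)).card : ℝ) := by
      exact_mod_cast hmed
    linarith
  have hA0 : 0 ≤ ∑ a, Real.exp (g a) := Finset.sum_nonneg (fun _ _ => (Real.exp_pos _).le)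
  have h3 : (∑ a, Real.exp (g a)) * ((2:ℝ) ^ K / 2) ≤ 4 ^ K * Real.exp (L ^ 2 * K / 4) :=
    (mul_le_mul_of_nonneg_left hB hA0).trans hpl
  have h4 : (4:ℝ) ^ K = 2 ^ K * 2 ^ K := by rw [← mul_pow]; norm_num
  rw [h4] at h3
  have h5 : (∑ a, Real.exp (g a)) * ((2:ℝ) ^ K / 2)
      ≤ (2 * 2 ^ K * Real.exp (L ^ 2 * K / 4)) * ((2:ℝ) ^ K / 2) := by
    calc _ ≤ (2:ℝ) ^ K * 2 ^ K * Real.exp (L ^ 2 * K / 4) := h3
      _ = _ := by ring
  exact le_of_mul_le_mul_right h5 (by positivity)

/-- Convexity: `|x - y|^q ≤ 2^(q-1) (|x - m|^q + |y - m|^q)`. -/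
theorem abs_sub_rpow_le (x y m q : ℝ) (hq : 1 ≤ q) :
    |x - y| ^ q ≤ 2 ^ (q - 1) * (|x - m| ^ q + |y - m| ^ q) := by
  have h1 : |x - y| ≤ |x - m| + |y - m| := by
    have := abs_sub_le x m y
    rwa [abs_sub_comm m y] at this
  have h2 : |x - y| ^ q ≤ (|x - m| + |y - m|) ^ q :=
    Real.rpow_le_rpow (abs_nonneg _) h1 (by linarith)
  refine h2.trans ?_
  have key : ∀ u v : ℝ, 0 ≤ u → 0 ≤ v → (u + v) ^ q ≤ 2 ^ (q - 1) * (u ^ q + v ^ q) := by
    intro u v hu hv
    lift u to NNReal using hu
    lift v to NNReal using hv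
    exact_mod_cast NNReal.rpow_add_le_mul_rpow_add_rpow u v hq
  exact key _ _ (abs_nonneg _) (abs_nonneg _)

/-- Pool job 217: concentration of sqrt-Hamming-Lipschitz functions on the cube. -/
theorem conc_cube (K : ℕ) (hK : 1 ≤ K) (q : ℝ) (hq : 2 ≤ q) (Lam : ℝ) (hLam : 0 ≤ Lam)
    (h : (Fin K → Bool) → ℝ)
    (hlip : ∀ a b, |h a - h b| ≤ Lam * Real.sqrt (hammingDist a b)) :
    ∑ a, ∑ b, |h a - h b| ^ q ≤ 4 ^ K * 2 ^ (q + 2) * Lam ^ q * (q * K) ^ (q / 4) := by
  have hq0 : 0 < q := by linarith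
  have he : 0 < Real.exp 1 := Real.exp_pos 1
  have hKpos : (0:ℝ) < K := by exact_mod_cast hK
  rcases hLam.eq_or_lt with h0 | hpos
  · have hz : ∀ a b, |h a - h b| ^ q = 0 := by
      intro a b
      have h1 := hlip a b
      rw [← h0, zero_mul] at h1
      have h2 : |h a - h b| = 0 := le_antisymm h1 (abs_nonneg _)
      rw [h2, Real.zero_rpow hq0.ne']
    simp only [hz, Finset.sum_const_zero]
    positivity
  · obtain ⟨M, hM1, hM2⟩ := exists_median h
    rw [Fintype.card_fun, Fintype.card_bool, Fintype.card_fin] at hM1 hM2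
    set L : ℝ := Real.sqrt (q / K) with hL
    have hLpos : 0 < L := Real.sqrt_pos.mpr (div_pos hq0 hKpos)
    have hL2 : L ^ 2 = q / K := Real.sq_sqrt (div_pos hq0 hKpos).le
    have hE : L ^ 2 * K / 4 = q / 4 := by rw [hL2]; field_simp
    have hup := one_side K L hLpos.le Lam hpos h hlip M hM1
    have hdown := one_side K L hLpos.le Lam hpos (fun a => - h a) (by
        intro a b
        have h1 := hlip a b
        have e : -h a - -h b = -(h a - h b) := by ring
        rw [e, abs_neg]; exact h1) (-M) (by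
        have : univ.filter (fun a => -h a ≤ -M) = univ.filter (fun a => M ≤ h a) := by
          ext a; simp
        rw [this]; exact hM2)
    rw [hE] at hup hdown
    have hboth : ∑ a, Real.exp (L * ((h a - M) ^ 2 / Lam ^ 2))
        ≤ 4 * 2 ^ K * Real.exp (q / 4) := by
      calc ∑ a, Real.exp (L * ((h a - M) ^ 2 / Lam ^ 2))
          ≤ ∑ a, (Real.exp (L * (max (h a - M) 0) ^ 2 / Lam ^ 2)
              + Real.exp (L * (max (-h a - -M) 0) ^ 2 / Lam ^ 2)) := by
            apply Finset.sum_le_sum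
            intro a _
            rcases le_total M (h a) with hc | hc
            · have e1 : max (h a - M) 0 = h a - M := max_eq_left (by linarith)
              rw [e1]
              have h1 := Real.exp_pos (L * (max (-h a - -M) 0) ^ 2 / Lam ^ 2)
              have e : L * ((h a - M) ^ 2 / Lam ^ 2) = L * (h a - M) ^ 2 / Lam ^ 2 := by ring
              rw [e]; linarith
            · have e1 : max (-h a - -M) 0 = M - h a := by
                rw [max_eq_left (by linarith)]; ring
              rw [e1]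
              have h1 := Real.exp_pos (L * (max (h a - M) 0) ^ 2 / Lam ^ 2)
              have e : L * ((h a - M) ^ 2 / Lam ^ 2) = L * (M - h a) ^ 2 / Lam ^ 2 := by ring
              rw [e]; linarith
        _ = ∑ a, Real.exp (L * (max (h a - M) 0) ^ 2 / Lam ^ 2)
              + ∑ a, Real.exp (L * (max (-h a - -M) 0) ^ 2 / Lam ^ 2) := Finset.sum_add_distrib
        _ ≤ 2 * 2 ^ K * Real.exp (q / 4) + 2 * 2 ^ K * Real.exp (q / 4) := add_le_add hup hdown
        _ = 4 * 2 ^ K * Real.exp (q / 4) := by ring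
    have hconst : (q / 2 / (Real.exp 1 * L)) ^ (q / 2) * Real.exp (q / 4) ≤ (q * K) ^ (q / 4) := by
      have hb : 0 ≤ q / 2 / (Real.exp 1 * L) := by positivity
      have e1 : (q / 2 / (Real.exp 1 * L)) ^ (q / 2)
          = ((q / 2 / (Real.exp 1 * L)) ^ 2) ^ (q / 4) := by
        rw [← Real.rpow_natCast, ← Real.rpow_mul hb]
        congr 1; push_cast; ring
      have e2 : Real.exp (q / 4) = (Real.exp 1) ^ (q / 4) := (Real.exp_one_rpow _).symm
      rw [e1, e2, ← Real.mul_rpow (by positivity) he.le]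
      apply Real.rpow_le_rpow (by positivity) _ (by positivity)
      have e3 : (q / 2 / (Real.exp 1 * L)) ^ 2 * Real.exp 1 = q * K / (4 * Real.exp 1) := by
        rw [div_pow, mul_pow, hL2]
        field_simp
        norm_num
      rw [e3]
      apply div_le_self (by positivity)
      have : 1 ≤ Real.exp 1 := Real.one_le_exp (by norm_num)
      linarith
    have hmom : ∑ a, |h a - M| ^ q ≤ 4 * 2 ^ K * Lam ^ q * (q * K) ^ (q / 4) := by
      have hpt : ∀ a, |h a - M| ^ q ≤ Lam ^ q * ((q / 2 / (Real.exp 1 * L)) ^ (q / 2)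
          * Real.exp (L * ((h a - M) ^ 2 / Lam ^ 2))) := by
        intro a
        have hr : 0 ≤ (h a - M) ^ 2 / Lam ^ 2 := by positivity
        have h1 := rpow_le_exp ((h a - M) ^ 2 / Lam ^ 2) (q / 2) L hr (by positivity) hLpos
        have e : |h a - M| ^ q = Lam ^ q * ((h a - M) ^ 2 / Lam ^ 2) ^ (q / 2) := by
          have e1 : (h a - M) ^ 2 / Lam ^ 2 = (|h a - M| / Lam) ^ 2 := by
            rw [div_pow, sq_abs]
          rw [e1, ← Real.rpow_natCast, ← Real.rpow_mul (by positivity)]
          have e2 : ((2:ℕ):ℝ) * (q / 2) = q := by push_cast; ring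
          rw [e2, Real.div_rpow (abs_nonneg _) hpos.le]
          have : 0 < Lam ^ q := Real.rpow_pos_of_pos hpos q
          field_simp
        rw [e]
        gcongr
      calc ∑ a, |h a - M| ^ q
          ≤ ∑ a, Lam ^ q * ((q / 2 / (Real.exp 1 * L)) ^ (q / 2)
              * Real.exp (L * ((h a - M) ^ 2 / Lam ^ 2))) := Finset.sum_le_sum (fun a _ => hpt a)
        _ = Lam ^ q * (q / 2 / (Real.exp 1 * L)) ^ (q / 2)
              * ∑ a, Real.exp (L * ((h a - M) ^ 2 / Lam ^ 2)) := by
          rw [Finset.mul_sum]; apply Finset.sum_congr rfl; intro a _; ring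
        _ ≤ Lam ^ q * (q / 2 / (Real.exp 1 * L)) ^ (q / 2) * (4 * 2 ^ K * Real.exp (q / 4)) := by
          gcongr
        _ = 4 * 2 ^ K * Lam ^ q * ((q / 2 / (Real.exp 1 * L)) ^ (q / 2) * Real.exp (q / 4)) := by
          ring
        _ ≤ 4 * 2 ^ K * Lam ^ q * (q * K) ^ (q / 4) := by
          gcongr
    have hcard : (Finset.univ : Finset (Fin K → Bool)).card = 2 ^ K := by
      rw [card_univ, Fintype.card_fun, Fintype.card_bool, Fintype.card_fin]
    set S : ℝ := ∑ a, |h a - M| ^ q with hS
    have hS0 : 0 ≤ S := Finset.sum_nonneg (fun a _ => by positivity)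
    have h2q : (2:ℝ) ^ (q + 2) = 2 ^ (q - 1) * 8 := by
      have : q + 2 = (q - 1) + 3 := by ring
      rw [this, Real.rpow_add (by norm_num)]
      congr 1
      have : (3:ℝ) = ((3:ℕ):ℝ) := by norm_num
      rw [this, Real.rpow_natCast]; norm_num
    calc ∑ a, ∑ b, |h a - h b| ^ q
        ≤ ∑ a, ∑ b, 2 ^ (q - 1) * (|h a - M| ^ q + |h b - M| ^ q) :=
          Finset.sum_le_sum (fun a _ => Finset.sum_le_sum (fun b _ =>
            abs_sub_rpow_le (h a) (h b) M q (by linarith)))
      _ = 2 ^ (q - 1) * (2 * 2 ^ K * S) := by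
          simp only [← Finset.mul_sum, Finset.sum_add_distrib, Finset.sum_const, hcard,
            nsmul_eq_mul]
          rw [← hS]
          push_cast
          ring
      _ ≤ 2 ^ (q - 1) * (2 * 2 ^ K * (4 * 2 ^ K * Lam ^ q * (q * K) ^ (q / 4))) := by
          gcongr
      _ = 4 ^ K * 2 ^ (q + 2) * Lam ^ q * (q * K) ^ (q / 4) := by
          have h4 : (4:ℝ) ^ K = 2 ^ K * 2 ^ K := by rw [← mul_pow]; norm_num
          rw [h2q, h4]; ring

end Vale.Agent.Lib.P249.H91
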