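import Vale.Agent.Lib.P249.helper91.PLSq

/-!
# The one-coordinate inequality with discrete Gaussian weights (helper91, P249, job 229 copy)

`grid_one`: if `b t * a t' ≤ N * exp ((gv t - gv t')^2 / (2 M^2))` on the grid `Fin (2M+1)`, then
`(∑ gphi * b) * (∑ gphi * a) ≤ N * (gZ M + 1)^2`.
Proof: `pl_sq` with `H z = exp (-(z - 2M)^2 / (4 M^2))` and the even/odd split of `∑ H`.
-/

namespace Vale.Agent.Lib.P249.H91

open Finset
open scoped Pointwise
open Vale.Agent.Lib.P249.H62

/-- The weight `gphi` as a function on `ℕ`. -/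
noncomputable def phiN (M : ℕ) (n : ℕ) : ℝ := Real.exp (-((n : ℝ) - M) ^ 2 / (M : ℝ) ^ 2)

/-- The function on the sum grid. -/
noncomputable def HN (M : ℕ) (z : ℕ) : ℝ := Real.exp (-((z : ℝ) - 2 * M) ^ 2 / (4 * (M : ℝ) ^ 2))

theorem phiN_pos (M n : ℕ) : 0 < phiN M n := Real.exp_pos _

theorem HN_pos (M z : ℕ) : 0 < HN M z := Real.exp_pos _

theorem sum_range_even_odd (f : ℕ → ℝ) (m : ℕ) :
    ∑ z ∈ range (2 * m + 1), f z
      = ∑ n ∈ range (m + 1), f (2 * n) + ∑ n ∈ range m, f (2 * n + 1) := by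
  induction m with
  | zero => simp
  | succ m ih =>
    have e : 2 * (m + 1) + 1 = (2 * m + 1) + 1 + 1 := by ring
    rw [e, Finset.sum_range_succ, Finset.sum_range_succ, ih,
      Finset.sum_range_succ (fun n => f (2 * n)) (m + 1),
      Finset.sum_range_succ (fun n => f (2 * n + 1)) m]
    have e1 : 2 * m + 1 + 1 = 2 * (m + 1) := by ring
    rw [e1]; ring

theorem HN_even (M : ℕ) (hM : 1 ≤ M) (n : ℕ) : HN M (2 * n) = phiN M n := by
  have hMpos : (0:ℝ) < M := by exact_mod_cast hM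
  unfold HN phiN
  congr 1
  push_cast
  field_simp
  ring

theorem HN_odd_ge (M : ℕ) (hM : 1 ≤ M) (n : ℕ) (hn : M ≤ n) : HN M (2 * n + 1) ≤ phiN M n := by
  have hMpos : (0:ℝ) < M := by exact_mod_cast hM
  have hn' : (M:ℝ) ≤ n := by exact_mod_cast hn
  unfold HN phiN
  apply Real.exp_le_exp.mpr
  rw [neg_div, neg_div, neg_le_neg_iff, div_le_div_iff₀ (by positivity) (by positivity)]
  push_cast
  nlinarith [sq_nonneg ((n:ℝ) - M), sq_nonneg (M:ℝ), mul_nonneg (sub_nonneg.mpr hn') (sq_nonneg (M:ℝ))]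

theorem HN_odd_lt (M : ℕ) (hM : 1 ≤ M) (n : ℕ) (hn : n < M) :
    HN M (2 * n + 1) ≤ phiN M (n + 1) := by
  have hMpos : (0:ℝ) < M := by exact_mod_cast hM
  have hn' : (n:ℝ) + 1 ≤ M := by exact_mod_cast hn
  unfold HN phiN
  apply Real.exp_le_exp.mpr
  rw [neg_div, neg_div, neg_le_neg_iff, div_le_div_iff₀ (by positivity) (by positivity)]
  push_cast
  nlinarith [sq_nonneg ((n:ℝ) + 1 - M), sq_nonneg (M:ℝ),
    mul_nonneg (sub_nonneg.mpr hn') (sq_nonneg (M:ℝ))]

theorem gZ_eq (M : ℕ) : gZ M = ∑ n ∈ range (2 * M + 1), phiN M n := by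
  unfold gZ
  rw [← Fin.sum_univ_eq_sum_range]
  rfl

theorem sum_HN_le (M : ℕ) (hM : 1 ≤ M) : ∑ z ∈ range (4 * M + 1), HN M z ≤ 2 * gZ M + 1 := by
  have e4 : 4 * M + 1 = 2 * (2 * M) + 1 := by ring
  rw [e4, sum_range_even_odd]
  have heven : ∑ n ∈ range (2 * M + 1), HN M (2 * n) = gZ M := by
    rw [gZ_eq]
    exact Finset.sum_congr rfl (fun n _ => HN_even M hM n)
  have hodd : ∑ n ∈ range (2 * M), HN M (2 * n + 1) ≤ gZ M + 1 := by
    have e2 : 2 * M = M + M := by ring
    rw [e2, Finset.sum_range_add]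
    have h1 : ∑ n ∈ range M, HN M (2 * n + 1) ≤ ∑ n ∈ range M, phiN M (n + 1) :=
      Finset.sum_le_sum (fun n hn => HN_odd_lt M hM n (Finset.mem_range.mp hn))
    have h2 : ∑ n ∈ range M, HN M (2 * (M + n) + 1) ≤ ∑ n ∈ range M, phiN M (M + n) :=
      Finset.sum_le_sum (fun n _ => HN_odd_ge M hM (M + n) (Nat.le_add_right _ _))
    have h3 : gZ M = ∑ n ∈ range M, phiN M n + (∑ n ∈ range M, phiN M (M + n) + phiN M (M + M)) := by
      rw [gZ_eq]
      have e3 : 2 * M + 1 = M + (M + 1) := by ring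
      rw [e3, Finset.sum_range_add, Finset.sum_range_succ]
    have h4 : ∑ n ∈ range M, phiN M (n + 1) + phiN M 0 = ∑ n ∈ range M, phiN M n + phiN M M := by
      rw [← Finset.sum_range_succ' (phiN M) M, Finset.sum_range_succ]
    have h5 : phiN M M = 1 := by
      unfold phiN; simp
    have h6 := phiN_pos M 0
    have h7 := phiN_pos M (M + M)
    linarith
  linarith

/-- Pool job 229 (helper62, GRID-C). -/
theorem grid_one (M : ℕ) (hM : 1 ≤ M) (a b : Fin (2 * M + 1) → ℝ) (N : ℝ)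
    (ha : ∀ t, 0 ≤ a t) (hb : ∀ t, 0 ≤ b t) (hN : 0 ≤ N)
    (h : ∀ t t', b t * a t' ≤ N * Real.exp ((gv M t - gv M t') ^ 2 / (2 * (M : ℝ) ^ 2))) :
    (∑ t, gphi M t * b t) * (∑ t, gphi M t * a t) ≤ N * (gZ M + 1) ^ 2 := by
  have hMpos : (0:ℝ) < M := by exact_mod_cast hM
  have hphi0 : ∀ t, 0 ≤ gphi M t := fun t => (Real.exp_pos _).le
  rcases hN.eq_or_lt with hN0 | hNpos
  · rw [← hN0, zero_mul, Finset.sum_mul_sum]
    apply Finset.sum_nonpos; intro t _; apply Finset.sum_nonpos; intro t' _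
    have h1 := h t t'
    rw [← hN0, zero_mul] at h1
    have e : gphi M t * b t * (gphi M t' * a t') = gphi M t * gphi M t' * (b t * a t') := by ring
    rw [e]
    exact mul_nonpos_of_nonneg_of_nonpos (mul_nonneg (hphi0 t) (hphi0 t')) h1
  · classical
    set bN : ℕ → ℝ := fun n => if hn : n < 2 * M + 1 then b ⟨n, hn⟩ else 0 with hbN
    set aN : ℕ → ℝ := fun n => if hn : n < 2 * M + 1 then a ⟨n, hn⟩ else 0 with haN
    set F : ℕ → ℝ := fun n => phiN M n * bN n / N with hF
    set G : ℕ → ℝ := fun n => phiN M n * aN n with hG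
    have hgphi : ∀ t : Fin (2 * M + 1), gphi M t = phiN M t := fun t => rfl
    have hbNt : ∀ t : Fin (2 * M + 1), bN t = b t := by
      intro t; simp only [hbN, Fin.is_lt, dite_true, Fin.eta]
    have haNt : ∀ t : Fin (2 * M + 1), aN t = a t := by
      intro t; simp only [haN, Fin.is_lt, dite_true, Fin.eta]
    have hsumF : ∑ n ∈ range (2 * M + 1), F n = (∑ t, gphi M t * b t) / N := by
      rw [← Fin.sum_univ_eq_sum_range, Finset.sum_div]
      apply Finset.sum_congr rfl; intro t _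
      simp only [hF, hbNt, hgphi]
    have hsumG : ∑ n ∈ range (2 * M + 1), G n = ∑ t, gphi M t * a t := by
      rw [← Fin.sum_univ_eq_sum_range]
      apply Finset.sum_congr rfl; intro t _
      simp only [hG, haNt, hgphi]
    have hF0 : ∀ x ∈ range (2 * M + 1), 0 ≤ F x := by
      intro x hx
      have hx' := Finset.mem_range.mp hx
      have : bN x = b ⟨x, hx'⟩ := by simp only [hbN, hx', dite_true]
      simp only [hF, this]
      exact div_nonneg (mul_nonneg (phiN_pos M x).le (hb _)) hNpos.le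
    have hG0 : ∀ y ∈ range (2 * M + 1), 0 ≤ G y := by
      intro y hy
      have hy' := Finset.mem_range.mp hy
      have : aN y = a ⟨y, hy'⟩ := by simp only [haN, hy', dite_true]
      simp only [hG, this]
      exact mul_nonneg (phiN_pos M y).le (ha _)
    -- the key pointwise bound
    have hFG : ∀ x ∈ range (2 * M + 1), ∀ y ∈ range (2 * M + 1),
        F x * G y ≤ Real.exp (-(((x:ℝ) + y) - 2 * M) ^ 2 / (2 * (M : ℝ) ^ 2)) := by
      intro x hx y hy
      have hx' := Finset.mem_range.mp hx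
      have hy' := Finset.mem_range.mp hy
      have e1 : bN x = b ⟨x, hx'⟩ := by simp only [hbN, hx', dite_true]
      have e2 : aN y = a ⟨y, hy'⟩ := by simp only [haN, hy', dite_true]
      have h1 := h ⟨x, hx'⟩ ⟨y, hy'⟩
      have hgx : gv M ⟨x, hx'⟩ = (x:ℝ) - M := rfl
      have hgy : gv M ⟨y, hy'⟩ = (y:ℝ) - M := rfl
      rw [hgx, hgy] at h1
      have hpp : 0 ≤ phiN M x * phiN M y := mul_nonneg (phiN_pos M x).le (phiN_pos M y).le
      calc F x * G y = phiN M x * phiN M y * (b ⟨x, hx'⟩ * a ⟨y, hy'⟩) / N := by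
            simp only [hF, hG, e1, e2]; ring
        _ ≤ phiN M x * phiN M y *
              (N * Real.exp (((x:ℝ) - M - ((y:ℝ) - M)) ^ 2 / (2 * (M : ℝ) ^ 2))) / N :=
            div_le_div_of_nonneg_right (mul_le_mul_of_nonneg_left h1 hpp) hNpos.le
        _ = phiN M x * phiN M y *
              Real.exp (((x:ℝ) - M - ((y:ℝ) - M)) ^ 2 / (2 * (M : ℝ) ^ 2)) := by
            field_simp
        _ = Real.exp (-(((x:ℝ) + y) - 2 * M) ^ 2 / (2 * (M : ℝ) ^ 2)) := by
            unfold phiN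
            rw [← Real.exp_add, ← Real.exp_add]
            congr 1
            field_simp
            ring
    have hHsq : ∀ x y : ℕ, HN M (x + y) ^ 2
        = Real.exp (-(((x:ℝ) + y) - 2 * M) ^ 2 / (2 * (M : ℝ) ^ 2)) := by
      intro x y
      unfold HN
      rw [sq, ← Real.exp_add]
      congr 1
      push_cast
      field_simp
      ring
    have key := pl_sq (range (2 * M + 1)) (range (2 * M + 1)) F G (HN M) hF0 hG0
      (fun z => (HN_pos M z).le)
      (fun x hx y hy => by rw [hHsq]; exact hFG x hx y hy)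
      (fun x hx y hy => by
        refine (hFG x hx y hy).trans ?_
        rw [Real.exp_le_one_iff]
        apply div_nonpos_of_nonpos_of_nonneg
        · exact neg_nonpos.mpr (sq_nonneg _)
        · positivity)
    have hsub : range (2 * M + 1) + range (2 * M + 1) ⊆ range (4 * M + 1) := by
      intro z hz
      obtain ⟨x, hx, y, hy, rfl⟩ := Finset.mem_add.mp hz
      have hx' := Finset.mem_range.mp hx
      have hy' := Finset.mem_range.mp hy
      exact Finset.mem_range.mpr (by omega)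
    have hS : ∑ z ∈ range (2 * M + 1) + range (2 * M + 1), HN M z ≤ 2 * gZ M + 1 :=
      (Finset.sum_le_sum_of_subset_of_nonneg hsub (fun z _ _ => (HN_pos M z).le)).trans
        (sum_HN_le M hM)
    have hS0 : 0 ≤ ∑ z ∈ range (2 * M + 1) + range (2 * M + 1), HN M z :=
      Finset.sum_nonneg (fun z _ => (HN_pos M z).le)
    rw [hsumF, hsumG] at key
    set P := ∑ t, gphi M t * b t with hP
    set Q := ∑ t, gphi M t * a t with hQ
    set S := ∑ z ∈ range (2 * M + 1) + range (2 * M + 1), HN M z with hSdef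
    have h8 : (S + 1) ^ 2 ≤ (2 * gZ M + 2) ^ 2 := by
      apply pow_le_pow_left₀ (by linarith) (by linarith)
    have h9 : 4 * (P / N * Q) ≤ 4 * (gZ M + 1) ^ 2 := by
      calc 4 * (P / N * Q) ≤ (S + 1) ^ 2 := key
        _ ≤ (2 * gZ M + 2) ^ 2 := h8
        _ = 4 * (gZ M + 1) ^ 2 := by ring
    have h10 : P / N * Q ≤ (gZ M + 1) ^ 2 := by linarith
    have h11 : P * Q = N * (P / N * Q) := by field_simp
    rw [h11]
    exact mul_le_mul_of_nonneg_left h10 hNpos.le

end Vale.Agent.Lib.P249.H91
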