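import Vale.Agent.Lib.P249.helper91.PLLevel

/-!
# Multiplicative discrete Prekopa-Leindler with defect one (helper91, P249, job 228 copy)

`pl_sq`: if `F x * G y ≤ H (x + y) ^ 2` and `F x * G y ≤ 1` on `A × B`, then
`4 * (∑_A F) * (∑_B G) ≤ (∑_{A+B} H + 1) ^ 2`.
-/

namespace Vale.Agent.Lib.P249.H91

open Finset
open scoped Pointwise

theorem pl_sq (A B : Finset ℕ) (F G H : ℕ → ℝ)
    (hF0 : ∀ x ∈ A, 0 ≤ F x) (hG0 : ∀ y ∈ B, 0 ≤ G y) (hH0 : ∀ z, 0 ≤ H z)
    (hH : ∀ x ∈ A, ∀ y ∈ B, F x * G y ≤ H (x + y) ^ 2)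
    (h1 : ∀ x ∈ A, ∀ y ∈ B, F x * G y ≤ 1) :
    4 * ((∑ x ∈ A, F x) * (∑ y ∈ B, G y)) ≤ (∑ z ∈ A + B, H z + 1) ^ 2 := by
  have hSF : 0 ≤ ∑ x ∈ A, F x := Finset.sum_nonneg hF0
  have hSG : 0 ≤ ∑ y ∈ B, G y := Finset.sum_nonneg hG0
  have hS : 0 ≤ ∑ z ∈ A + B, H z := Finset.sum_nonneg (fun z _ => hH0 z)
  rcases hSF.eq_or_lt with hF | hFpos
  · rw [← hF]; nlinarith [sq_nonneg (∑ z ∈ A + B, H z + 1)]
  rcases hSG.eq_or_lt with hG | hGpos
  · rw [← hG]; nlinarith [sq_nonneg (∑ z ∈ A + B, H z + 1)]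
  have hA : A.Nonempty := by
    by_contra hne
    rw [Finset.not_nonempty_iff_eq_empty] at hne
    rw [hne, Finset.sum_empty] at hFpos
    exact lt_irrefl _ hFpos
  have hB : B.Nonempty := by
    by_contra hne
    rw [Finset.not_nonempty_iff_eq_empty] at hne
    rw [hne, Finset.sum_empty] at hGpos
    exact lt_irrefl _ hGpos
  obtain ⟨x1, hx1, hx1max⟩ := A.exists_max_image F hA
  obtain ⟨y1, hy1, hy1max⟩ := B.exists_max_image G hB
  have hmF : 0 < F x1 := by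
    by_contra hle
    rw [not_lt] at hle
    have : ∑ x ∈ A, F x ≤ 0 :=
      Finset.sum_nonpos (fun x hx => (hx1max x hx).trans hle)
    linarith
  have hmG : 0 < G y1 := by
    by_contra hle
    rw [not_lt] at hle
    have : ∑ y ∈ B, G y ≤ 0 :=
      Finset.sum_nonpos (fun y hy => (hy1max y hy).trans hle)
    linarith
  set mF := F x1 with hmFdef
  set mG := G y1 with hmGdef
  have hmm : mF * mG ≤ 1 := h1 x1 hx1 y1 hy1
  set r : ℝ := Real.sqrt (mF * mG) with hr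
  have hrpos : 0 < r := Real.sqrt_pos.mpr (mul_pos hmF hmG)
  have hr2 : r ^ 2 = mF * mG := Real.sq_sqrt (mul_pos hmF hmG).le
  have hr1 : r ≤ 1 := by
    rw [hr]
    calc Real.sqrt (mF * mG) ≤ Real.sqrt 1 := Real.sqrt_le_sqrt hmm
      _ = 1 := Real.sqrt_one
  have key := pl_level A B (fun x => F x / mF) (fun y => G y / mG) (fun z => H z / r) 1
    (fun x hx => div_nonneg (hF0 x hx) hmF.le) (fun y hy => div_nonneg (hG0 y hy) hmG.le)
    (fun x hx => (div_le_one hmF).mpr (hx1max x hx))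
    (fun y hy => (div_le_one hmG).mpr (hy1max y hy))
    ⟨x1, hx1, div_self hmF.ne'⟩ ⟨y1, hy1, div_self hmG.ne'⟩
    (by
      intro x hx y hy
      rw [le_div_iff₀ hrpos]
      have hu : 0 ≤ F x / mF := div_nonneg (hF0 x hx) hmF.le
      have hv : 0 ≤ G y / mG := div_nonneg (hG0 y hy) hmG.le
      have hmin0 : 0 ≤ min (F x / mF) (G y / mG) := le_min hu hv
      have hsq : (min (F x / mF) (G y / mG) * r) ^ 2 ≤ H (x + y) ^ 2 := by
        have h2 : min (F x / mF) (G y / mG) ^ 2 ≤ (F x / mF) * (G y / mG) := by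
          rw [sq]
          exact mul_le_mul (min_le_left _ _) (min_le_right _ _) hmin0 hu
        calc (min (F x / mF) (G y / mG) * r) ^ 2
            = min (F x / mF) (G y / mG) ^ 2 * (mF * mG) := by rw [mul_pow, hr2]
          _ ≤ (F x / mF) * (G y / mG) * (mF * mG) :=
              mul_le_mul_of_nonneg_right h2 (mul_pos hmF hmG).le
          _ = F x * G y := by field_simp
          _ ≤ H (x + y) ^ 2 := hH x hx y hy
      exact le_of_pow_le_pow_left₀ two_ne_zero (hH0 _) hsq)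
  simp only [← Finset.sum_div] at key
  set u := (∑ x ∈ A, F x) / mF with hu
  set w := (∑ y ∈ B, G y) / mG with hw
  set S := ∑ z ∈ A + B, H z with hSdef
  have hu0 : 0 ≤ u := div_nonneg hSF hmF.le
  have hw0 : 0 ≤ w := div_nonneg hSG hmG.le
  have h3 : r * (u + w) ≤ S + 1 := by
    have h4 : (u + w - 1) * r ≤ S := by
      rw [← le_div_iff₀ hrpos]; exact key
    nlinarith
  have h5 : 0 ≤ r * (u + w) := by positivity
  have e1 : (∑ x ∈ A, F x) = u * mF := by rw [hu]; field_simp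
  have e2 : (∑ y ∈ B, G y) = w * mG := by rw [hw]; field_simp
  calc 4 * ((∑ x ∈ A, F x) * (∑ y ∈ B, G y)) = 4 * (u * w) * r ^ 2 := by
        rw [e1, e2, hr2]; ring
    _ ≤ (r * (u + w)) ^ 2 := by nlinarith [sq_nonneg (u - w), sq_nonneg r]
    _ ≤ (S + 1) ^ 2 := by
        apply pow_le_pow_left₀ h5 h3

end Vale.Agent.Lib.P249.H91
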